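import Vale.Agent.P184.AG.Core
import Vale.Agent.P184.H115.AsmA
import Vale.Agent.P184.H38.Sub2

open scoped Pointwise

namespace Vale.Agent.Results.P184.AllGroups

open Vale.Agent.P184.Un Vale.Agent.P184.H57 Vale.Agent.P184.H115 Vale.Agent.P184.H250
  Vale.Agent.P184.AG Vale.Agent.P184.H38 Vale.Agent.P184.H174

universe u

/-- Traces of idempotents over `ℓ¹(G)`, for all groups `G`. -/
theorem result :
    -- Gaussian bound of the traces in terms of any length function, with explicit constants
    (∀ (G : Type u) [Group G] (L : G → ℝ) (q : ℕ) (e : Mat G q), IsLen L → IsIdem e →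
      (∀ i j, Summable fun g => ‖e i j g‖ * √(L g)) → ∀ (C : ConjClasses G) (D : ℝ), 0 < D →
      (∀ g ∈ C.carrier, D ≤ L g) →
      ‖tau C e‖ ≤ Real.exp 1 * N0 e * Real.exp (-(D / (16 * N0 e * N1 e L ^ 2)) ^ 2)) ∧
    -- Gaussian decay of the traces, for all idempotents and all length functions
    (∀ (G : Type u) [Group G] (L : G → ℝ) (q : ℕ) (e : Mat G q), IsLen L → IsIdem e →
      ∃ c K : ℝ, 0 < c ∧ ∀ (C : ConjClasses G) (D : ℝ), 0 < D → (∀ g ∈ C.carrier, D ≤ L g) →
        ‖tau C e‖ ≤ K * Real.exp (-(c * D ^ 2))) ∧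
    -- the same for the word length with respect to a finite set
    (∀ (G : Type u) [Group G] (q : ℕ) (e : Mat G q), IsIdem e →
      ∃ (S : Finset G) (c K : ℝ), 0 < c ∧ ∀ (C : ConjClasses G) (n : ℕ),
        (∀ l : List G, l.length ≤ n → (∀ y ∈ l, y ∈ S) → l.prod ∉ C.carrier) →
          ‖tau C e‖ ≤ K * Real.exp (-(c * (n : ℝ) ^ 2))) ∧
    -- vanishing at the elements which are locally core-slow, or detected by exact groups
    (∀ (G : Type u) [Group G] (x : G), LocSlow x →
      ∀ (H : Type u) [Group H] (g : H →* G) (y : H), g y = x → VanishesAt y) ∧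
    -- centralizers with a slow field, e.g. with characters of subexponential distortion, or of
    -- polynomial growth of subexponential distortion
    (∀ (G : Type u) [Group G] (x : G), (CenSlow x → CoreSlow x) ∧
      (PsiSub x ∨ DblSub x → CenSlow x)) ∧
    -- vanishing from finite quotients
    (∀ (G : Type u) [Group G] (x : G), (∀ S : Finset G, 1 ∈ S → (∀ s ∈ S, s⁻¹ ∈ S) →
      ∀ A : ℝ, GalFar S A x) → VanishesAt x) ∧
    -- the conjecture, if all elements of infinite order are such elements, and the torsion classes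
    -- of the finitely generated subgroups are slow or far, up to finitely many
    (∀ (G : Type u) [Group G],
      (∀ x : G, ¬ IsOfFinOrder x → LocSlow x ∨ ∀ S : Finset G, 1 ∈ S → (∀ s ∈ S, s⁻¹ ∈ S) →
        ∀ A : ℝ, GalFar S A x) →
      (TorSoft G ∨ ∀ S : Finset G, {C : ConjClasses (Subgroup.closure (S : Set G)) |
        ∀ g ∈ C.carrier, IsOfFinOrder g}.Finite) → L1Bass G) :=
  ⟨fun _ _ _ _ e hL he h1 C _ hD hC => gaussA hL e he h1 C hD hC,
    fun _ _ _ _ e hL he => gaussLen e he hL,
    fun _ _ _ e he => gaussWord e he,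
    fun _ _ _ hx => uvAt_of_locSlow hx,
    fun _ _ _ => ⟨coreSlow_of_cenSlow, fun hx => hx.elim cenSlow_of_psiSub
      fun hx => cenSlow_of_dimSub (dimSub_of_dblSub hx)⟩,
    fun _ _ _ hx => vanishesAt_of_galFar hx,
    fun _ _ hx ht => l1Bass_of_torSoft (fun x h => (hx x h).elim
      (fun h => vanishesAt_of_uvAt (uvAt_of_locSlow h)) vanishesAt_of_galFar)
      (ht.elim id fun h => torSoft_of_torFar (torFar_of_finite h))⟩

end Vale.Agent.Results.P184.AllGroups
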