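import Vale.Agent.P184.Ex.LimU

namespace Vale.Agent.Results.P184.ExactGroups

open Vale.Agent.P184.Un Vale.Agent.P184.H57

universe u v

/-- The `ℓ¹`-Bass conjecture for all exact groups and their limits. -/
theorem result :
    -- the conjecture for all groups with property A
    (∀ (G : Type u) [Group G], PropertyA G → L1Bass G) ∧
    -- the conjecture for the groups `G` such that the finite parts of the multiplication table of
    -- `G` lift to groups with property A
    (∀ (G : Type u) [Group G],
      (∀ S : Finset G, ∃ (H : Type v) (_ : Group H), Lifts H S ∧ PropertyA H) → L1Bass G) ∧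
    -- vanishing at elements, which are locally detected by groups with property A
    (∀ (G : Type u) [Group G] (x : G), LocDetected x → VanishesAt x) ∧
    -- the conjecture, if all elements of infinite order are locally detected
    (∀ (G : Type u) [Group G], {C : ConjClasses G | ∀ g ∈ C.carrier, IsOfFinOrder g}.Finite →
      (∀ x : G, ¬ IsOfFinOrder x → LocDetected x) → L1Bass G) ∧
    -- universal vanishing is a local property
    (∀ (G : Type u) [Group G] (x : G), (∀ S : Finset G, ∃ (L : Type u) (_ : Group L) (l : G → L),
      (∀ a ∈ S, ∀ b ∈ S, l (a * b) = l a * l b) ∧ UVAt (l x)) → UVAt x) :=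
  ⟨fun _ _ hG => l1Bass_of_propertyA hG,
    fun _ _ hG => l1Bass_of_limExact.{u, v} hG,
    fun _ _ _ hx => vanishesAt_of_locDetected hx,
    fun _ _ hf hx => l1Bass_of_locDetected hf hx,
    fun _ _ x hx => uvAt_of_loc x hx⟩

end Vale.Agent.Results.P184.ExactGroups
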